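import Vale.Agent.P272.K.QN.H86.Diag
import Vale.Agent.P272.K.QN.H947.Local

/-! Block HA1: `SubMean n`. -/

open scoped ContDiff

namespace Vale.Agent.P272.K.QN

theorem subMean (n : ℕ) : SubMean n := by
  intro f c R A hR hA hf hL
  exact H86.polydisc_submean_diag hR hA
    (fun z hz => (hf z hz).of_le (WithTop.coe_le_coe.2 le_top)) hL

end Vale.Agent.P272.K.QN
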