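import Mathlib.MeasureTheory.Integral.CircleIntegral
import Mathlib.Analysis.Calculus.ParametricIntervalIntegral
import Mathlib.Analysis.Calculus.MeanValue
import Mathlib.Analysis.Calculus.Deriv.MeanValue
import Mathlib.Analysis.Calculus.FDeriv.Symmetric

/-! The sub-mean value inequality on circles for functions of class `C²` (P272, blocks QN/AMP). -/

open Complex MeasureTheory Metric Set Filter Topology intervalIntegral
open scoped Real

noncomputable section

namespace Vale.Agent.P272.K.QN.H86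

lemma c2_near {u : ℂ → ℝ} {z : ℂ} (h : ContDiffAt ℝ 2 u z) :
    DifferentiableAt ℝ u z ∧ DifferentiableAt ℝ (fderiv ℝ u) z ∧
      ContinuousAt (fderiv ℝ u) z ∧ ContinuousAt (fderiv ℝ (fderiv ℝ u)) z := by
  have h1 : ContDiffAt ℝ 1 (fderiv ℝ u) z := h.fderiv_right (by norm_num)
  have h2 : ContDiffAt ℝ 0 (fderiv ℝ (fderiv ℝ u)) z := h1.fderiv_right (by norm_num)
  exact ⟨h.differentiableAt (by norm_num), h1.differentiableAt (by norm_num),
    h1.continuousAt, h2.continuousAt⟩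

/-- **Monotonicity of circle means.**  If `u` is of class `C²` near the closed unit disc and
`Δu ≥ 0` there, then `2π u(0) ≤ ∫ u(e^{iθ}) dθ`. -/
theorem circle_submean {u : ℂ → ℝ} (hu : ∀ z ∈ closedBall (0 : ℂ) 1, ContDiffAt ℝ 2 u z)
    (hL : ∀ z ∈ closedBall (0 : ℂ) 1,
      0 ≤ fderiv ℝ (fderiv ℝ u) z 1 1 + fderiv ℝ (fderiv ℝ u) z I I) :
    2 * π * u 0 ≤ ∫ θ in (-π)..π, u (cexp (θ * I)) := by
  set D := fderiv ℝ u with hD
  set D2 := fderiv ℝ D with hD2
  have hmem : ∀ t ∈ Icc (0:ℝ) 1, ∀ θ : ℝ, (t : ℂ) * cexp (θ * I) ∈ closedBall (0 : ℂ) 1 := by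
    intro t ht θ
    rw [mem_closedBall_zero_iff, norm_mul, Complex.norm_exp_ofReal_mul_I, mul_one,
      Complex.norm_real, Real.norm_eq_abs, abs_of_nonneg ht.1]
    exact ht.2
  have hcu : ContinuousOn u (closedBall (0:ℂ) 1) := fun z hz =>
    (c2_near (hu z hz)).1.continuousAt.continuousWithinAt
  have hcD : ContinuousOn D (closedBall (0:ℂ) 1) := fun z hz =>
    (c2_near (hu z hz)).2.2.1.continuousWithinAt
  have hcD2 : ContinuousOn D2 (closedBall (0:ℂ) 1) := fun z hz =>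
    (c2_near (hu z hz)).2.2.2.continuousWithinAt
  have hce : Continuous fun p : ℝ × ℝ => (p.1 : ℂ) * cexp (p.2 * I) := by fun_prop
  have hmaps : MapsTo (fun p : ℝ × ℝ => (p.1 : ℂ) * cexp (p.2 * I)) (Icc (0:ℝ) 1 ×ˢ Icc (-π) π)
      (closedBall (0:ℂ) 1) := fun p hp => hmem p.1 hp.1 p.2
  have hpi : (-π) ≤ π := by linarith [Real.pi_pos]
  -- the functions
  set M : ℝ → ℝ := fun t => ∫ θ in (-π)..π, u ((t : ℂ) * cexp (θ * I)) with hM
  set K : ℝ → ℝ := fun t => ∫ θ in (-π)..π, D ((t : ℂ) * cexp (θ * I)) ((t : ℂ) * cexp (θ * I))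
    with hK
  -- continuity in `t` on `[0,1]`
  have hcont : ∀ {F : ℝ → ℝ → ℝ}, ContinuousOn (fun p : ℝ × ℝ => F p.1 p.2)
      (Icc (0:ℝ) 1 ×ˢ Icc (-π) π) →
      ContinuousOn (fun t => ∫ θ in (-π)..π, F t θ) (Icc (0:ℝ) 1) := by
    intro F hF
    obtain ⟨C, hC⟩ := (isCompact_Icc.prod isCompact_Icc).exists_bound_of_continuousOn hF
    intro t ht
    apply intervalIntegral.continuousWithinAt_of_dominated_interval (bound := fun _ => C)
    · filter_upwards [self_mem_nhdsWithin] with s hs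
      rw [uIoc_of_le hpi]
      refine (ContinuousOn.mono ?_ Ioc_subset_Icc_self).aestronglyMeasurable measurableSet_Ioc
      exact hF.comp (f := fun θ : ℝ => (s, θ)) (by fun_prop) (fun θ hθ => ⟨hs, hθ⟩)
    · filter_upwards [self_mem_nhdsWithin] with s hs
      refine Eventually.of_forall fun θ hθ => ?_
      rw [uIoc_of_le hpi] at hθ
      exact hC (s, θ) ⟨hs, Ioc_subset_Icc_self hθ⟩
    · exact intervalIntegrable_const
    · refine Eventually.of_forall fun θ hθ => ?_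
      rw [uIoc_of_le hpi] at hθ
      have : ContinuousOn (fun s : ℝ => F s θ) (Icc (0:ℝ) 1) :=
        hF.comp (f := fun s : ℝ => (s, θ)) (by fun_prop) (fun s hs => ⟨hs, Ioc_subset_Icc_self hθ⟩)
      exact this t ht
  -- differentiation under the integral sign
  have hder : ∀ {F F' : ℝ → ℝ → ℝ}, ContinuousOn (fun p : ℝ × ℝ => F p.1 p.2)
      (Icc (0:ℝ) 1 ×ˢ Icc (-π) π) → ContinuousOn (fun p : ℝ × ℝ => F' p.1 p.2)
      (Icc (0:ℝ) 1 ×ˢ Icc (-π) π) → (∀ t ∈ Ioo (0:ℝ) 1, ∀ θ, HasDerivAt (fun s => F s θ) (F' t θ) t) →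
      ∀ t ∈ Ioo (0:ℝ) 1, HasDerivAt (fun t => ∫ θ in (-π)..π, F t θ)
        (∫ θ in (-π)..π, F' t θ) t := by
    intro F F' hF hF' hd t ht
    obtain ⟨C, hC⟩ := (isCompact_Icc.prod isCompact_Icc).exists_bound_of_continuousOn hF'
    refine (intervalIntegral.hasDerivAt_integral_of_dominated_loc_of_deriv_le
      (F := F) (F' := F') (bound := fun _ => C) (Ioo_mem_nhds ht.1 ht.2) ?_ ?_ ?_ ?_ ?_ ?_).2
    · filter_upwards [Ioo_mem_nhds ht.1 ht.2] with s hs
      rw [uIoc_of_le hpi]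
      refine (ContinuousOn.mono ?_ Ioc_subset_Icc_self).aestronglyMeasurable measurableSet_Ioc
      exact hF.comp (f := fun θ : ℝ => (s, θ)) (by fun_prop)
        (fun θ hθ => ⟨Ioo_subset_Icc_self hs, hθ⟩)
    · refine ContinuousOn.intervalIntegrable ?_
      rw [uIcc_of_le hpi]
      exact hF.comp (f := fun θ : ℝ => (t, θ)) (by fun_prop)
        (fun θ hθ => ⟨Ioo_subset_Icc_self ht, hθ⟩)
    · rw [uIoc_of_le hpi]
      refine (ContinuousOn.mono ?_ Ioc_subset_Icc_self).aestronglyMeasurable measurableSet_Ioc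
      exact hF'.comp (f := fun θ : ℝ => (t, θ)) (by fun_prop)
        (fun θ hθ => ⟨Ioo_subset_Icc_self ht, hθ⟩)
    · refine Eventually.of_forall fun θ hθ s hs => ?_
      rw [uIoc_of_le hpi] at hθ
      exact hC (s, θ) ⟨Ioo_subset_Icc_self hs, Ioc_subset_Icc_self hθ⟩
    · exact intervalIntegrable_const
    · exact Eventually.of_forall fun θ _ s hs => hd s hs θ
  -- continuity facts
  have c1 : ContinuousOn (fun p : ℝ × ℝ => u ((p.1 : ℂ) * cexp (p.2 * I)))
      (Icc (0:ℝ) 1 ×ˢ Icc (-π) π) := hcu.comp hce.continuousOn hmaps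
  have c2 : ContinuousOn (fun p : ℝ × ℝ => D ((p.1 : ℂ) * cexp (p.2 * I)) (cexp (p.2 * I)))
      (Icc (0:ℝ) 1 ×ˢ Icc (-π) π) :=
    (hcD.comp hce.continuousOn hmaps).clm_apply (by fun_prop)
  have c3 : ContinuousOn (fun p : ℝ × ℝ => D ((p.1 : ℂ) * cexp (p.2 * I))
      ((p.1 : ℂ) * cexp (p.2 * I))) (Icc (0:ℝ) 1 ×ˢ Icc (-π) π) :=
    (hcD.comp hce.continuousOn hmaps).clm_apply (by fun_prop)
  have c4 : ContinuousOn (fun p : ℝ × ℝ => D2 ((p.1 : ℂ) * cexp (p.2 * I)) (cexp (p.2 * I))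
      ((p.1 : ℂ) * cexp (p.2 * I)) + D ((p.1 : ℂ) * cexp (p.2 * I)) (cexp (p.2 * I)))
      (Icc (0:ℝ) 1 ×ˢ Icc (-π) π) :=
    (((hcD2.comp hce.continuousOn hmaps).clm_apply (by fun_prop)).clm_apply (by fun_prop)).add c2
  -- derivative of `t ↦ t e^{iθ}`
  have dr : ∀ t θ : ℝ, HasDerivAt (fun s : ℝ => (s : ℂ) * cexp (θ * I)) (cexp (θ * I)) t := by
    intro t θ
    simpa using (Complex.ofRealCLM.hasDerivAt (x := t)).mul_const (cexp (θ * I))
  have dth : ∀ t θ : ℝ, HasDerivAt (fun φ : ℝ => (t : ℂ) * cexp (φ * I))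
      ((t : ℂ) * (cexp (θ * I) * I)) θ := by
    intro t θ
    have h1 : HasDerivAt (fun φ : ℝ => ((φ : ℂ) * I)) I θ := by
      simpa using (Complex.ofRealCLM.hasDerivAt (x := θ)).mul_const I
    exact (h1.cexp).const_mul (t : ℂ)
  have hM' : ∀ t ∈ Ioo (0:ℝ) 1, HasDerivAt M
      (∫ θ in (-π)..π, D ((t : ℂ) * cexp (θ * I)) (cexp (θ * I))) t := by
    refine hder (F := fun t θ => u ((t : ℂ) * cexp (θ * I)))
      (F' := fun t θ => D ((t : ℂ) * cexp (θ * I)) (cexp (θ * I))) c1 c2 fun t ht θ => ?_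
    exact (c2_near (hu _ (hmem t (Ioo_subset_Icc_self ht) θ))).1.hasFDerivAt.comp_hasDerivAt t
      (dr t θ)
  have hK' : ∀ t ∈ Ioo (0:ℝ) 1, HasDerivAt K
      (∫ θ in (-π)..π, (D2 ((t : ℂ) * cexp (θ * I)) (cexp (θ * I)) ((t : ℂ) * cexp (θ * I)) +
        D ((t : ℂ) * cexp (θ * I)) (cexp (θ * I)))) t := by
    refine hder (F := fun t θ => D ((t : ℂ) * cexp (θ * I)) ((t : ℂ) * cexp (θ * I)))
      (F' := fun t θ => D2 ((t : ℂ) * cexp (θ * I)) (cexp (θ * I)) ((t : ℂ) * cexp (θ * I)) +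
        D ((t : ℂ) * cexp (θ * I)) (cexp (θ * I))) c3 c4 fun t ht θ => ?_
    have h1 : HasDerivAt (fun s : ℝ => D ((s : ℂ) * cexp (θ * I)))
        (D2 ((t : ℂ) * cexp (θ * I)) (cexp (θ * I))) t :=
      (c2_near (hu _ (hmem t (Ioo_subset_Icc_self ht) θ))).2.1.hasFDerivAt.comp_hasDerivAt t
        (dr t θ)
    exact h1.clm_apply (dr t θ)
  -- the tangential derivative integrates to zero
  have htan : ∀ t ∈ Ioo (0:ℝ) 1, ∫ θ in (-π)..π, (D2 ((t : ℂ) * cexp (θ * I))
      ((t : ℂ) * (cexp (θ * I) * I)) (cexp (θ * I) * I) -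
        D ((t : ℂ) * cexp (θ * I)) (cexp (θ * I))) = 0 := by
    intro t ht
    have ht' := Ioo_subset_Icc_self ht
    have hd : ∀ θ ∈ uIcc (-π) π, HasDerivAt
        (fun φ : ℝ => D ((t : ℂ) * cexp (φ * I)) (cexp (φ * I) * I))
        (D2 ((t : ℂ) * cexp (θ * I)) ((t : ℂ) * (cexp (θ * I) * I)) (cexp (θ * I) * I) -
        D ((t : ℂ) * cexp (θ * I)) (cexp (θ * I))) θ := by
      intro θ _
      have h1 : HasDerivAt (fun φ : ℝ => D ((t : ℂ) * cexp (φ * I)))
          (D2 ((t : ℂ) * cexp (θ * I)) ((t : ℂ) * (cexp (θ * I) * I))) θ :=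
        (c2_near (hu _ (hmem t ht' θ))).2.1.hasFDerivAt.comp_hasDerivAt θ (dth t θ)
      have h2 : HasDerivAt (fun φ : ℝ => cexp (φ * I) * I) (cexp (θ * I) * I * I) θ := by
        have h1 : HasDerivAt (fun φ : ℝ => ((φ : ℂ) * I)) I θ := by
          simpa using (Complex.ofRealCLM.hasDerivAt (x := θ)).mul_const I
        exact (h1.cexp).mul_const I
      have h3 := h1.clm_apply h2
      have h4 : cexp (θ * I) * I * I = -cexp (θ * I) := by
        rw [mul_assoc, I_mul_I]; ring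
      rw [h4, map_neg] at h3
      simpa [sub_eq_add_neg] using h3
    rw [intervalIntegral.integral_eq_sub_of_hasDerivAt hd]
    · have : cexp ((π : ℝ) * I) = cexp (((-π : ℝ) : ℂ) * I) := by
        rw [Complex.exp_pi_mul_I]
        push_cast
        rw [neg_mul, Complex.exp_neg, Complex.exp_pi_mul_I]
        norm_num
      rw [this, sub_self]
    · refine ContinuousOn.intervalIntegrable ?_
      have hg : Continuous fun θ : ℝ => (t : ℂ) * cexp (θ * I) := by fun_prop
      have hm : MapsTo (fun θ : ℝ => (t : ℂ) * cexp (θ * I)) (uIcc (-π) π)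
        (closedBall (0:ℂ) 1) := fun θ _ => hmem t ht' θ
      exact (((hcD2.comp hg.continuousOn hm).clm_apply (by fun_prop)).clm_apply
        (by fun_prop)).sub ((hcD.comp hg.continuousOn hm).clm_apply (by fun_prop))
  -- `K' ≥ 0`
  have hrot : ∀ z ∈ closedBall (0:ℂ) 1, ∀ θ : ℝ, D2 z (cexp (θ * I)) (cexp (θ * I)) +
      D2 z (cexp (θ * I) * I) (cexp (θ * I) * I) = D2 z 1 1 + D2 z I I := by
    intro z hz θ
    have hs : ∀ v w, D2 z v w = D2 z w v := by
      intro v w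
      have := (hu z hz).isSymmSndFDerivAt (by simp)
      exact this v w
    have h1 : cexp (θ * I) = (Real.cos θ) • (1:ℂ) + (Real.sin θ) • I := by
      rw [Complex.exp_mul_I]
      simp [Complex.ofReal_cos, Complex.ofReal_sin]
    have h2 : cexp (θ * I) * I = (-Real.sin θ) • (1:ℂ) + (Real.cos θ) • I := by
      rw [h1]
      apply Complex.ext <;> simp
    rw [h2, h1]
    simp only [map_add, map_smul, _root_.add_apply, _root_.smul_apply, smul_eq_mul]
    rw [hs I 1]
    have := Real.sin_sq_add_cos_sq θ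
    linear_combination (D2 z 1 1 + D2 z I I) * this
  have hKnn : ∀ t ∈ Ioo (0:ℝ) 1, 0 ≤ ∫ θ in (-π)..π, (D2 ((t : ℂ) * cexp (θ * I))
      (cexp (θ * I)) ((t : ℂ) * cexp (θ * I)) + D ((t : ℂ) * cexp (θ * I)) (cexp (θ * I))) := by
    intro t ht
    have ht' := Ioo_subset_Icc_self ht
    have hg : Continuous fun θ : ℝ => (t : ℂ) * cexp (θ * I) := by fun_prop
    have hm : MapsTo (fun θ : ℝ => (t : ℂ) * cexp (θ * I)) (uIcc (-π) π)
      (closedBall (0:ℂ) 1) := fun θ _ => hmem t ht' θ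
    have i1 : IntervalIntegrable (fun θ : ℝ => D2 ((t : ℂ) * cexp (θ * I))
      (cexp (θ * I)) ((t : ℂ) * cexp (θ * I)) + D ((t : ℂ) * cexp (θ * I)) (cexp (θ * I)))
        volume (-π) π := by
      refine ContinuousOn.intervalIntegrable ?_
      exact (((hcD2.comp hg.continuousOn hm).clm_apply (by fun_prop)).clm_apply
        (by fun_prop)).add ((hcD.comp hg.continuousOn hm).clm_apply (by fun_prop))
    have i2 : IntervalIntegrable (fun θ : ℝ => D2 ((t : ℂ) * cexp (θ * I))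
      ((t : ℂ) * (cexp (θ * I) * I)) (cexp (θ * I) * I) -
        D ((t : ℂ) * cexp (θ * I)) (cexp (θ * I))) volume (-π) π := by
      refine ContinuousOn.intervalIntegrable ?_
      exact (((hcD2.comp hg.continuousOn hm).clm_apply (by fun_prop)).clm_apply
        (by fun_prop)).sub ((hcD.comp hg.continuousOn hm).clm_apply (by fun_prop))
    have e1 := intervalIntegral.integral_add i1 i2
    rw [htan t ht, add_zero] at e1
    rw [← e1]
    refine intervalIntegral.integral_nonneg hpi fun θ _ => ?_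
    have hz := hmem t ht' θ
    have h1 := hrot _ hz θ
    have h2 := hL _ hz
    have e2 : (t : ℂ) * cexp (θ * I) = t • cexp (θ * I) := by simp
    have e3 : (t : ℂ) * (cexp (θ * I) * I) = t • (cexp (θ * I) * I) := by simp
    have e4 : D2 ((t : ℂ) * cexp (θ * I)) (cexp (θ * I)) ((t : ℂ) * cexp (θ * I)) =
        t * D2 ((t : ℂ) * cexp (θ * I)) (cexp (θ * I)) (cexp (θ * I)) := by
      conv_lhs => rw [e2]
      rw [map_smul, smul_eq_mul, ← e2]
    have e5 : D2 ((t : ℂ) * cexp (θ * I)) ((t : ℂ) * (cexp (θ * I) * I)) (cexp (θ * I) * I) =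
        t * D2 ((t : ℂ) * cexp (θ * I)) (cexp (θ * I) * I) (cexp (θ * I) * I) := by
      conv_lhs => rw [e3]
      rw [map_smul, _root_.smul_apply, smul_eq_mul]
    rw [e4, e5]
    have : 0 ≤ t * (D2 ((t : ℂ) * cexp (θ * I)) (cexp (θ * I)) (cexp (θ * I)) +
        D2 ((t : ℂ) * cexp (θ * I)) (cexp (θ * I) * I) (cexp (θ * I) * I)) := by
      rw [h1]
      exact mul_nonneg ht.1.le h2
    linarith
  have hKmono : MonotoneOn K (Icc (0:ℝ) 1) := by
    apply monotoneOn_of_deriv_nonneg (convex_Icc 0 1)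
    · exact hcont (F := fun t θ => D ((t : ℂ) * cexp (θ * I)) ((t : ℂ) * cexp (θ * I))) c3
    · rw [interior_Icc]
      exact fun t ht => (hK' t ht).differentiableAt.differentiableWithinAt
    · rw [interior_Icc]
      intro t ht
      rw [(hK' t ht).deriv]
      exact hKnn t ht
  have hK0 : K 0 = 0 := by simp [hK]
  have hMmono : MonotoneOn M (Icc (0:ℝ) 1) := by
    apply monotoneOn_of_deriv_nonneg (convex_Icc 0 1)
    · exact hcont (F := fun t θ => u ((t : ℂ) * cexp (θ * I))) c1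
    · rw [interior_Icc]
      exact fun t ht => (hM' t ht).differentiableAt.differentiableWithinAt
    · rw [interior_Icc]
      intro t ht
      rw [(hM' t ht).deriv]
      have h1 : K t = t * ∫ θ in (-π)..π, D ((t : ℂ) * cexp (θ * I)) (cexp (θ * I)) := by
        rw [hK, ← intervalIntegral.integral_const_mul]
        refine intervalIntegral.integral_congr fun θ _ => ?_
        have e2 : (t : ℂ) * cexp (θ * I) = t • cexp (θ * I) := by simp
        show D ((t : ℂ) * cexp (θ * I)) ((t : ℂ) * cexp (θ * I)) = _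
        conv_lhs => rw [e2]
        rw [map_smul, smul_eq_mul, ← e2]
      have h2 : 0 ≤ K t := by
        rw [← hK0]
        exact hKmono (left_mem_Icc.2 zero_le_one) (Ioo_subset_Icc_self ht) ht.1.le
      rw [h1] at h2
      exact nonneg_of_mul_nonneg_right h2 ht.1
  have hfin := hMmono (left_mem_Icc.2 zero_le_one) (right_mem_Icc.2 zero_le_one) zero_le_one
  have hM0 : M 0 = 2 * π * u 0 := by
    show ∫ θ in (-π)..π, u (((0:ℝ) : ℂ) * cexp (θ * I)) = _
    simp only [ofReal_zero, zero_mul, intervalIntegral.integral_const, smul_eq_mul]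
    ring
  have hM1 : M 1 = ∫ θ in (-π)..π, u (cexp (θ * I)) := by simp [hM]
  rw [hM0, hM1] at hfin
  exact hfin

end Vale.Agent.P272.K.QN.H86
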