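import Vale.Agent.P272.K.N.Hess
import Vale.Agent.P272.K.QN.H86.Circle
import Mathlib.Analysis.Complex.Isometry
import Mathlib.MeasureTheory.Measure.Haar.InnerProductSpace
import Mathlib.MeasureTheory.Measure.Lebesgue.VolumeOfBalls

/-! The sub-mean value inequality on polydiscs (P272, block HA1). -/

open scoped Manifold ContDiff ComplexOrder
open Complex MeasureTheory Metric Set Filter Topology intervalIntegral
open scoped Real

noncomputable section

namespace Vale.Agent.P272.K.QN.H86

open Vale.Agent.P272.K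

variable {n : ℕ}

/-- Second derivative along an affine map. -/
lemma fderiv2_affine {E F : Type*} [NormedAddCommGroup E] [NormedSpace ℝ E] [NormedAddCommGroup F]
    [NormedSpace ℝ F] {f : F → ℝ} (L : E →L[ℝ] F) (c : F) {z : E}
    (hf : ContDiffAt ℝ 2 f (c + L z)) (w w' : E) :
    fderiv ℝ (fderiv ℝ fun ζ => f (c + L ζ)) z w w' =
      fderiv ℝ (fderiv ℝ f) (c + L z) (L w) (L w') := by
  have hev : ∀ᶠ y in 𝓝 z, ContDiffAt ℝ 2 f (c + L y) := by
    have hc : ContinuousAt (fun y => c + L y) z := by fun_prop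
    exact hc.eventually (hf.eventually (by simp))
  have h1 : fderiv ℝ (fun ζ => f (c + L ζ)) =ᶠ[𝓝 z] fun y => (fderiv ℝ f (c + L y)).comp L := by
    filter_upwards [hev] with y hy
    have h2 : HasFDerivAt (fun ζ => c + L ζ) L y := L.hasFDerivAt.const_add c
    exact ((hy.differentiableAt (by norm_num)).hasFDerivAt.comp y h2).fderiv
  rw [h1.fderiv_eq]
  have h2 : HasFDerivAt (fun ζ => c + L ζ) L z := L.hasFDerivAt.const_add c
  have h3 : DifferentiableAt ℝ (fderiv ℝ f) (c + L z) :=
    (hf.fderiv_right (m := 1) (by norm_num)).differentiableAt (by norm_num)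
  have h4 := h3.hasFDerivAt.comp z h2
  have h5 := h4.clm_comp (hasFDerivAt_const L z)
  have h6 : HasFDerivAt (fun y => (fderiv ℝ f (c + L y)).comp L) _ z := h5
  rw [h6.fderiv]
  simp

/-- Second derivative of `ζ ↦ a ‖ζ‖²`. -/
lemma fderiv2_normsq (a : ℝ) (z w w' : ℂ) :
    fderiv ℝ (fderiv ℝ fun ζ : ℂ => a * ‖ζ‖ ^ 2) z w w' = a * (2 * inner ℝ w w') := by
  have h1 : (fderiv ℝ fun ζ : ℂ => a * ‖ζ‖ ^ 2) = fun y => a • (2 • (innerSL ℝ y)) := by
    funext y
    have := (hasStrictFDerivAt_norm_sq (F := ℂ) y).hasFDerivAt.const_mul a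
    exact this.fderiv
  rw [h1]
  have h2 : HasFDerivAt (fun y : ℂ => a • (2 • (innerSL ℝ y))) (a • (2 • (innerSL ℝ (E := ℂ)))) z := by
    exact (((innerSL ℝ (E := ℂ)).hasFDerivAt).const_smul 2).const_smul a
  rw [h2.fderiv]
  show a * (2 • (innerSL ℝ w w')) = _
  rw [innerSL_apply_apply, nsmul_eq_mul]
  norm_num

lemma norm_sq_sum_le {R : ℝ} (v : Cm n) (hv : ‖v‖ ≤ R) : ∑ k, ‖v k‖ ^ 2 ≤ n * R ^ 2 := by
  have h0 : 0 ≤ R := (norm_nonneg v).trans hv
  calc ∑ k, ‖v k‖ ^ 2 ≤ ∑ _k : Fin n, R ^ 2 := by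
        refine Finset.sum_le_sum fun k _ => ?_
        exact pow_le_pow_left₀ (norm_nonneg _) ((norm_le_pi_norm v k).trans hv) 2
    _ = n * R ^ 2 := by simp

/-- **The circle inequality in `ℂⁿ`**: a `C²` function with `i∂∂̄f ≥ -A` satisfies
`f(c) ≤ mean of f(c + e^{iθ} v) + A n R²` for `‖v‖ ≤ R` (sup norm). -/
theorem circle_submean_Cm {f : Cm n → ℝ} {c : Cm n} {R A : ℝ} (hA : 0 ≤ A)
    (hf : ∀ z ∈ closedBall c R, ContDiffAt ℝ 2 f z)
    (hL : ∀ z ∈ closedBall c R,
      (cHess f z + (A : ℂ) • (1 : Matrix (Fin n) (Fin n) ℂ)).PosSemidef)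
    {v : Cm n} (hv : ‖v‖ ≤ R) :
    2 * π * f c ≤ (∫ θ in (-π)..π, f (c + cexp (θ * I) • v)) + 2 * π * (A * n * R ^ 2) := by
  set S : ℝ := ∑ k, ‖v k‖ ^ 2 with hS
  have hSR : S ≤ n * R ^ 2 := norm_sq_sum_le v hv
  set L : ℂ →L[ℝ] Cm n := (ContinuousLinearMap.toSpanSingleton ℂ v).restrictScalars ℝ with hLdef
  have hLa : ∀ ζ, L ζ = ζ • v := fun ζ => by simp [hLdef]
  have hmem : ∀ ζ ∈ closedBall (0:ℂ) 1, c + L ζ ∈ closedBall c R := by
    intro ζ hζ
    rw [mem_closedBall_iff_norm, add_sub_cancel_left, hLa, norm_smul]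
    have h1 : ‖ζ‖ ≤ 1 := by simpa using hζ
    calc ‖ζ‖ * ‖v‖ ≤ 1 * ‖v‖ := by gcongr
      _ ≤ R := by rw [one_mul]; exact hv
  set g : ℂ → ℝ := fun ζ => f (c + L ζ) with hg
  set q : ℂ → ℝ := fun ζ => (A * S) * ‖ζ‖ ^ 2 with hq
  have hgC : ∀ z ∈ closedBall (0:ℂ) 1, ContDiffAt ℝ 2 g z := by
    intro z hz
    refine (hf _ (hmem z hz)).comp z ?_
    exact (contDiff_const.add L.contDiff).contDiffAt
  have hqC : ContDiff ℝ 2 q := contDiff_const.mul (contDiff_norm_sq ℝ)
  have hsum : ∀ z ∈ closedBall (0:ℂ) 1, ∀ w w', fderiv ℝ (fderiv ℝ fun ζ => g ζ + q ζ) z w w' =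
      fderiv ℝ (fderiv ℝ g) z w w' + fderiv ℝ (fderiv ℝ q) z w w' := by
    intro z hz w w'
    have hev : ∀ᶠ y in 𝓝 z, ContDiffAt ℝ 2 g y := (hgC z hz).eventually (by simp)
    have h1 : (fderiv ℝ fun ζ => g ζ + q ζ) =ᶠ[𝓝 z] fun y => fderiv ℝ g y + fderiv ℝ q y := by
      filter_upwards [hev] with y hy
      exact fderiv_fun_add (hy.differentiableAt (by norm_num))
        (hqC.contDiffAt.differentiableAt (by norm_num))
    rw [h1.fderiv_eq, fderiv_fun_add (c2_near (hgC z hz)).2.1 (c2_near hqC.contDiffAt).2.1]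
    rfl
  have key := circle_submean (u := fun ζ => g ζ + q ζ) (fun z hz => (hgC z hz).add hqC.contDiffAt)
    (fun z hz => by
      rw [hsum z hz, hsum z hz, fderiv2_normsq, fderiv2_normsq]
      rw [fderiv2_affine L c (hf _ (hmem z hz)), fderiv2_affine L c (hf _ (hmem z hz))]
      have hp := hL _ (hmem z hz)
      set B := fderiv ℝ (fderiv ℝ f) (c + L z) with hB
      have hd : DifferentiableAt ℝ (fderiv ℝ f) (c + L z) :=
        ((hf _ (hmem z hz)).fderiv_right (m := 1) (by norm_num)).differentiableAt (by norm_num)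
      have hsym : ∀ v w, B v w = B w v := fun v w =>
        (hf _ (hmem z hz)).isSymmSndFDerivAt (by simp) v w
      have h1 := hp.dotProduct_mulVec_nonneg (star v)
      rw [N.cHess_eq_lev hd, Matrix.add_mulVec, dotProduct_add, ← hB,
        N.lev_quadratic hsym] at h1
      rw [star_star] at h1
      have h2 : v ⬝ᵥ ((A : ℂ) • (1 : Matrix (Fin n) (Fin n) ℂ)).mulVec (star v) =
          ((A * S : ℝ) : ℂ) := by
        rw [Matrix.smul_mulVec, Matrix.one_mulVec, dotProduct_smul, smul_eq_mul]
        push_cast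
        congr 1
        rw [hS]
        push_cast
        refine Finset.sum_congr rfl fun k _ => ?_
        simp only [Pi.star_apply, RCLike.star_def]
        rw [Complex.mul_conj, Complex.normSq_eq_norm_sq]
        push_cast; rfl
      rw [h2] at h1
      have h3 : (0:ℝ) ≤ (B v v + B (I • v) (I • v)) / 4 + A * S := by
        exact_mod_cast h1
      rw [hLa, hLa, one_smul]
      have e1 : inner ℝ (1:ℂ) (1:ℂ) = (1:ℝ) := by simp
      have e2 : inner ℝ I I = (1:ℝ) := by simp
      rw [e1, e2]
      linarith)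
  have h0 : g 0 = f c := by simp [hg]
  have hq0 : q 0 = 0 := by simp [hq]
  simp only [h0, hq0, add_zero] at key
  have hgc : IntervalIntegrable (fun θ : ℝ => g (cexp (θ * I))) volume (-π) π := by
    apply ContinuousOn.intervalIntegrable
    intro θ _
    have hm : cexp (θ * I) ∈ closedBall (0:ℂ) 1 := by
      simp [Complex.norm_exp_ofReal_mul_I]
    have h1 : ContinuousAt g (cexp (θ * I)) := (hgC _ hm).continuousAt
    have h2 : ContinuousAt (fun θ : ℝ => cexp (θ * I)) θ := by fun_prop
    exact (ContinuousAt.comp (f := fun θ : ℝ => cexp (θ * I)) h1 h2).continuousWithinAt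
  have hqi : ∀ θ : ℝ, q (cexp (θ * I)) = A * S := by
    intro θ
    simp [hq, Complex.norm_exp_ofReal_mul_I]
  rw [intervalIntegral.integral_add hgc (by simp only [hqi]; exact intervalIntegrable_const)] at key
  simp only [hqi, intervalIntegral.integral_const, smul_eq_mul] at key
  have e3 : (∫ θ in (-π)..π, g (cexp (θ * I))) = ∫ θ in (-π)..π, f (c + cexp (θ * I) • v) := by
    refine intervalIntegral.integral_congr fun θ _ => ?_
    simp [hg, hLa]
  rw [e3] at key
  have h4 : A * S ≤ A * n * R ^ 2 := by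
    calc A * S ≤ A * (n * R ^ 2) := by gcongr
      _ = _ := by ring
  have h5 : (π - -π) * (A * S) ≤ 2 * π * (A * n * R ^ 2) := by
    have : (π - -π) = 2 * π := by ring
    rw [this]
    exact mul_le_mul_of_nonneg_left h4 (by positivity)
  linarith

/-- Rotation by a unit complex number preserves Lebesgue measure of `ℂⁿ`. -/
lemma measurePreserving_smul_circle (θ : ℝ) :
    MeasurePreserving (fun v : Cm n => cexp (θ * I) • v) volume volume := by
  have h2 := volume_preserving_pi (f := fun (_ : Fin n) (z : ℂ) => rotation (Circle.exp θ) z)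
    (fun _ => (rotation (Circle.exp θ)).measurePreserving)
  have h3 : (fun (a : Fin n → ℂ) (i : Fin n) => rotation (Circle.exp θ) (a i)) =
      fun v : Cm n => cexp (θ * I) • v := by
    funext v i
    simp [rotation_apply, Circle.coe_exp]
  rw [← h3]
  exact h2

lemma setIntegral_rot (F : Cm n → ℝ) (R : ℝ) (θ : ℝ) :
    ∫ v in ball (0 : Cm n) R, F (cexp (θ * I) • v) = ∫ v in ball (0 : Cm n) R, F v := by
  have hne : cexp (θ * I) ≠ 0 := Complex.exp_ne_zero _
  have hemb : MeasurableEmbedding (fun v : Cm n => cexp (θ * I) • v) :=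
    (Homeomorph.smulOfNeZero _ hne).measurableEmbedding
  have h := (measurePreserving_smul_circle (n := n) θ).setIntegral_preimage_emb hemb F
    (ball (0 : Cm n) R)
  have hpre : (fun v : Cm n => cexp (θ * I) • v) ⁻¹' ball (0 : Cm n) R = ball (0 : Cm n) R := by
    ext v
    simp [norm_smul, Complex.norm_exp_ofReal_mul_I]
  rw [hpre] at h
  exact h

/-- **Sub-mean value inequality on polydiscs (HA1).** -/
theorem polydisc_submean {f : Cm n → ℝ} {c : Cm n} {R A : ℝ} (hA : 0 ≤ A)
    (hf : ∀ z ∈ closedBall c R, ContDiffAt ℝ 2 f z)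
    (hL : ∀ z ∈ closedBall c R,
      (cHess f z + (A : ℂ) • (1 : Matrix (Fin n) (Fin n) ℂ)).PosSemidef) :
    volume.real (ball c R) * f c ≤
      (∫ z in ball c R, f z) + volume.real (ball c R) * (A * n * R ^ 2) := by
  have hpi : (-π) ≤ π := by linarith [Real.pi_pos]
  have hfc : ContinuousOn f (closedBall c R) := fun z hz =>
    (hf z hz).continuousAt.continuousWithinAt
  -- translation to the origin
  have htr : ∀ F : Cm n → ℝ, ∫ z in ball c R, F z = ∫ v in ball (0 : Cm n) R, F (c + v) := by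
    intro F
    have hemb : MeasurableEmbedding (fun v : Cm n => c + v) :=
      (Homeomorph.addLeft c).measurableEmbedding
    have h := (measurePreserving_add_left (volume : Measure (Cm n)) c).setIntegral_preimage_emb
      hemb F (ball c R)
    rw [← h]
    congr 2
    ext v
    simp
  have hvol : volume.real (ball c R) = volume.real (ball (0 : Cm n) R) := by
    have h := htr fun _ => 1
    simpa using h
  set B0 := ball (0 : Cm n) R with hB0
  have hB0fin : volume B0 ≠ ⊤ := measure_ball_lt_top.ne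
  -- the function on the product
  set F : Cm n → ℝ → ℝ := fun v θ => f (c + cexp (θ * I) • v) with hF
  have hmaps : ∀ v ∈ closedBall (0 : Cm n) R, ∀ θ : ℝ, c + cexp (θ * I) • v ∈ closedBall c R := by
    intro v hv θ
    rw [mem_closedBall_iff_norm, add_sub_cancel_left, norm_smul, Complex.norm_exp_ofReal_mul_I,
      one_mul]
    simpa using hv
  have hFc : ContinuousOn (Function.uncurry F) (closedBall (0 : Cm n) R ×ˢ Icc (-π) π) := by
    refine hfc.comp (f := fun p : Cm n × ℝ => c + cexp (p.2 * I) • p.1) (by fun_prop) ?_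
    intro p hp
    exact hmaps p.1 hp.1 p.2
  have hFi : Integrable (Function.uncurry F)
      ((volume.restrict B0).prod (volume.restrict (Ioc (-π) π))) := by
    rw [Measure.prod_restrict]
    have hK : IsCompact (closedBall (0 : Cm n) R ×ˢ Icc (-π) π) :=
      (isCompact_closedBall _ _).prod isCompact_Icc
    have := hFc.integrableOn_compact (μ := (volume : Measure (Cm n)).prod volume) hK
    exact this.mono_set (prod_mono ball_subset_closedBall Ioc_subset_Icc_self)
  -- pointwise inequality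
  have hpt : ∀ v ∈ B0, 2 * π * f c ≤ (∫ θ in Ioc (-π) π, F v θ) + 2 * π * (A * n * R ^ 2) := by
    intro v hv
    have h := circle_submean_Cm hA hf hL (v := v) (by
      have : ‖v‖ < R := by simpa [hB0] using hv
      exact this.le)
    rwa [intervalIntegral.integral_of_le hpi] at h
  have hint : Integrable (fun v => ∫ θ in Ioc (-π) π, F v θ) (volume.restrict B0) :=
    hFi.integral_prod_left
  have h1 : ∫ _v in B0, (2 * π * f c) ≤
      ∫ v in B0, ((∫ θ in Ioc (-π) π, F v θ) + 2 * π * (A * n * R ^ 2)) := by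
    refine setIntegral_mono_on (integrableOn_const hB0fin)
      (hint.add (integrableOn_const hB0fin)) measurableSet_ball hpt
  rw [integral_add hint (integrableOn_const hB0fin), setIntegral_const, setIntegral_const] at h1
  have h2 : ∫ v in B0, ∫ θ in Ioc (-π) π, F v θ = 2 * π * ∫ v in B0, f (c + v) := by
    rw [integral_integral_swap hFi]
    have h3 : ∀ θ : ℝ, ∫ v in B0, F v θ = ∫ v in B0, f (c + v) := fun θ =>
      setIntegral_rot (fun v => f (c + v)) R θ
    simp only [h3, setIntegral_const, smul_eq_mul]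
    congr 1
    rw [measureReal_def, Real.volume_Ioc, ENNReal.toReal_ofReal (by linarith [Real.pi_pos])]
    ring
  rw [h2, ← htr f, smul_eq_mul, smul_eq_mul] at h1
  rw [hvol]
  have hpos : 0 < 2 * π := by positivity
  have h4 : 2 * π * (volume.real B0 * f c) ≤
      2 * π * ((∫ z in ball c R, f z) + volume.real B0 * (A * n * R ^ 2)) := by
    calc 2 * π * (volume.real B0 * f c) = volume.real B0 * (2 * π * f c) := by ring
      _ ≤ _ := h1
      _ = _ := by ring
  exact le_of_mul_le_mul_left h4 hpos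

/-- The form with averages. -/
theorem polydisc_submean_average {f : Cm n → ℝ} {c : Cm n} {R A : ℝ} (hR : 0 < R) (hA : 0 ≤ A)
    (hf : ∀ z ∈ closedBall c R, ContDiffAt ℝ 2 f z)
    (hL : ∀ z ∈ closedBall c R,
      (cHess f z + (A : ℂ) • (1 : Matrix (Fin n) (Fin n) ℂ)).PosSemidef) :
    f c ≤ (volume.real (ball c R))⁻¹ * (∫ z in ball c R, f z) + A * n * R ^ 2 := by
  have hv : 0 < volume.real (ball c R) := by
    rw [measureReal_def]
    exact ENNReal.toReal_pos (measure_ball_pos _ _ hR).ne' measure_ball_lt_top.ne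
  have h := polydisc_submean hA hf hL
  have h2 : f c = (volume.real (ball c R))⁻¹ * (volume.real (ball c R) * f c) := by
    rw [← mul_assoc, inv_mul_cancel₀ hv.ne', one_mul]
  rw [h2]
  calc (volume.real (ball c R))⁻¹ * (volume.real (ball c R) * f c)
      ≤ (volume.real (ball c R))⁻¹ *
        ((∫ z in ball c R, f z) + volume.real (ball c R) * (A * n * R ^ 2)) := by gcongr
    _ = _ := by
      rw [mul_add, ← mul_assoc (volume.real (ball c R))⁻¹ (volume.real (ball c R)),
        inv_mul_cancel₀ hv.ne', one_mul]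

end Vale.Agent.P272.K.QN.H86
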