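import Vale.Agent.P272.K.QN.H86.Poly
import Mathlib.MeasureTheory.Integral.Average

/-! The sub-mean value inequality on polydiscs, with a hypothesis only on the diagonal entries of
the complex Hessian (P272, block HA1). -/

open scoped Manifold ContDiff ComplexOrder
open Complex MeasureTheory Metric Set Filter Topology intervalIntegral
open scoped Real

noncomputable section

namespace Vale.Agent.P272.K.QN.H86

open Vale.Agent.P272.K

variable {n : ℕ}

/-- The circle inequality along one complex line. -/
theorem circle_submean_dir {f : Cm n → ℝ} {p w : Cm n} {a : ℝ}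
    (hf : ∀ ζ ∈ closedBall (0:ℂ) 1, ContDiffAt ℝ 2 f (p + ζ • w))
    (hL : ∀ ζ ∈ closedBall (0:ℂ) 1, 0 ≤ fderiv ℝ (fderiv ℝ f) (p + ζ • w) w w +
      fderiv ℝ (fderiv ℝ f) (p + ζ • w) (I • w) (I • w) + 4 * a) :
    2 * π * f p ≤ (∫ θ in (-π)..π, f (p + cexp (θ * I) • w)) + 2 * π * a := by
  set L : ℂ →L[ℝ] Cm n := (ContinuousLinearMap.toSpanSingleton ℂ w).restrictScalars ℝ with hLdef
  have hLa : ∀ ζ, L ζ = ζ • w := fun ζ => by simp [hLdef]
  set g : ℂ → ℝ := fun ζ => f (p + L ζ) with hg
  set q : ℂ → ℝ := fun ζ => a * ‖ζ‖ ^ 2 with hq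
  have hgC : ∀ z ∈ closedBall (0:ℂ) 1, ContDiffAt ℝ 2 g z := by
    intro z hz
    refine ContDiffAt.comp z (by rw [hLa]; exact hf _ hz) ?_
    exact (contDiff_const.add L.contDiff).contDiffAt
  have hqC : ContDiff ℝ 2 q := contDiff_const.mul (contDiff_norm_sq ℝ)
  have hsum : ∀ z ∈ closedBall (0:ℂ) 1, ∀ w w', fderiv ℝ (fderiv ℝ fun ζ => g ζ + q ζ) z w w' =
      fderiv ℝ (fderiv ℝ g) z w w' + fderiv ℝ (fderiv ℝ q) z w w' := by
    intro z hz w w'
    have hev : ∀ᶠ y in 𝓝 z, ContDiffAt ℝ 2 g y := (hgC z hz).eventually (by simp)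
    have h1 : (fderiv ℝ fun ζ => g ζ + q ζ) =ᶠ[𝓝 z] fun y => fderiv ℝ g y + fderiv ℝ q y := by
      filter_upwards [hev] with y hy
      exact fderiv_fun_add (hy.differentiableAt (by norm_num))
        (hqC.contDiffAt.differentiableAt (by norm_num))
    rw [h1.fderiv_eq, fderiv_fun_add (c2_near (hgC z hz)).2.1 (c2_near hqC.contDiffAt).2.1]
    rfl
  have key := circle_submean (u := fun ζ => g ζ + q ζ) (fun z hz => (hgC z hz).add hqC.contDiffAt)
    (fun z hz => by
      rw [hsum z hz, hsum z hz, fderiv2_normsq, fderiv2_normsq]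
      have hz' : ContDiffAt ℝ 2 f (p + L z) := by rw [hLa]; exact hf _ hz
      rw [fderiv2_affine L p hz', fderiv2_affine L p hz']
      have h3 := hL z hz
      rw [hLa, hLa, hLa, one_smul]
      have e1 : inner ℝ (1:ℂ) (1:ℂ) = (1:ℝ) := by simp
      have e2 : inner ℝ I I = (1:ℝ) := by simp
      rw [e1, e2]
      linarith)
  have h0 : g 0 = f p := by simp [hg]
  have hq0 : q 0 = 0 := by simp [hq]
  simp only [h0, hq0, add_zero] at key
  have hgc : IntervalIntegrable (fun θ : ℝ => g (cexp (θ * I))) volume (-π) π := by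
    apply ContinuousOn.intervalIntegrable
    intro θ _
    have hm : cexp (θ * I) ∈ closedBall (0:ℂ) 1 := by
      simp [Complex.norm_exp_ofReal_mul_I]
    have h1 : ContinuousAt g (cexp (θ * I)) := (hgC _ hm).continuousAt
    have h2 : ContinuousAt (fun θ : ℝ => cexp (θ * I)) θ := by fun_prop
    exact (ContinuousAt.comp (f := fun θ : ℝ => cexp (θ * I)) h1 h2).continuousWithinAt
  have hqi : ∀ θ : ℝ, q (cexp (θ * I)) = a := by
    intro θ
    simp [hq, Complex.norm_exp_ofReal_mul_I]
  rw [intervalIntegral.integral_add hgc (by simp only [hqi]; exact intervalIntegrable_const)] at key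
  simp only [hqi, intervalIntegral.integral_const, smul_eq_mul] at key
  have e3 : (∫ θ in (-π)..π, g (cexp (θ * I))) = ∫ θ in (-π)..π, f (p + cexp (θ * I) • w) := by
    refine intervalIntegral.integral_congr fun θ _ => ?_
    simp [hg, hLa]
  rw [e3] at key
  have h5 : (π - -π) * a = 2 * π * a := by ring
  linarith

/-- The real second derivatives in the direction `t e_k`. -/
lemma second_dir {B : N.Bil n} (hB : ∀ v w, B v w = B w v) (k : Fin n) (t : ℂ) :
    B (Pi.single k t) (Pi.single k t) + B (I • (Pi.single k t : Cm n)) (I • (Pi.single k t : Cm n)) =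
      4 * (‖t‖ ^ 2 * (N.lev B k k).re) := by
  have h1 : (Pi.single k t : Cm n) =
      t.re • (Pi.single k (1:ℂ) : Cm n) + t.im • (Pi.single k I : Cm n) := by
    ext i
    by_cases h : i = k
    · subst h; apply Complex.ext <;> simp
    · simp [h]
  have h2 : I • (Pi.single k t : Cm n) =
      (-t.im) • (Pi.single k (1:ℂ) : Cm n) + t.re • (Pi.single k I : Cm n) := by
    ext i
    by_cases h : i = k
    · subst h; apply Complex.ext <;> simp
    · simp [h]
  have h3 : (N.lev B k k).re =
      (B (Pi.single k 1) (Pi.single k 1) + B (Pi.single k I) (Pi.single k I)) / 4 := by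
    rw [N.lev_apply]
    have e4 : (4 : ℂ) = ((4:ℝ):ℂ) := by norm_num
    rw [e4, div_ofReal_re]
    simp only [add_re, mul_re, ofReal_re, ofReal_im, I_re, I_im]
    ring
  have h4 : ‖t‖ ^ 2 = t.re ^ 2 + t.im ^ 2 := by
    rw [← Complex.normSq_eq_norm_sq, Complex.normSq_apply]; ring
  rw [h2, h1, h3, h4]
  simp only [map_add, map_smul, _root_.add_apply, _root_.smul_apply, smul_eq_mul]
  rw [hB (Pi.single k I) (Pi.single k 1)]
  ring

/-- keep the coordinates in `s`, put the others equal to `0` -/
def keep (s : Finset (Fin n)) (v : Cm n) : Cm n := fun k => if k ∈ s then v k else 0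

/-- rotate the coordinate `k` -/
def rotc (k : Fin n) (θ : ℝ) (v : Cm n) : Cm n := fun j => if j = k then cexp (θ * I) * v j else v j

lemma norm_rotc (k : Fin n) (θ : ℝ) (v : Cm n) (j : Fin n) : ‖rotc k θ v j‖ = ‖v j‖ := by
  unfold rotc
  split_ifs
  · rw [norm_mul, Complex.norm_exp_ofReal_mul_I, one_mul]
  · rfl

lemma norm_keep_le (s : Finset (Fin n)) (v : Cm n) : ‖keep s v‖ ≤ ‖v‖ := by
  refine (pi_norm_le_iff_of_nonneg (norm_nonneg v)).2 fun k => ?_
  unfold keep
  split_ifs
  · exact norm_le_pi_norm v k
  · simp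

lemma measurePreserving_rotc (k : Fin n) (θ : ℝ) :
    MeasurePreserving (rotc (n := n) k θ) volume volume := by
  have h2 := volume_preserving_pi
    (f := fun (j : Fin n) (z : ℂ) => if j = k then rotation (Circle.exp θ) z else z)
    (fun j => by
      by_cases h : j = k
      · simp only [h, if_true]; exact (rotation (Circle.exp θ)).measurePreserving
      · simp only [h, if_false]; exact MeasurePreserving.id _)
  have h3 : (fun (a : Fin n → ℂ) (j : Fin n) =>
      if j = k then rotation (Circle.exp θ) (a j) else a j) = rotc (n := n) k θ := by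
    funext v j
    simp [rotation_apply, Circle.coe_exp, rotc]
  rw [← h3]
  exact h2

lemma continuous_rotc (k : Fin n) (θ : ℝ) : Continuous (rotc (n := n) k θ) := by
  refine continuous_pi fun j => ?_
  unfold rotc
  split_ifs <;> fun_prop

lemma rotc_rotc (k : Fin n) (θ φ : ℝ) (v : Cm n) : rotc k θ (rotc k φ v) = rotc k (θ + φ) v := by
  funext j
  unfold rotc
  split_ifs
  · rw [← mul_assoc, ← Complex.exp_add]; push_cast; ring_nf
  · rfl

lemma rotc_zero (k : Fin n) (v : Cm n) : rotc k 0 v = v := by
  funext j; simp [rotc]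

/-- the rotation as a homeomorphism -/
def rotcHomeo (k : Fin n) (θ : ℝ) : Cm n ≃ₜ Cm n where
  toFun := rotc k θ
  invFun := rotc k (-θ)
  left_inv v := by rw [rotc_rotc]; simp [rotc_zero]
  right_inv v := by rw [rotc_rotc]; simp [rotc_zero]
  continuous_toFun := continuous_rotc k θ
  continuous_invFun := continuous_rotc k (-θ)

lemma setIntegral_rotc (F : Cm n → ℝ) {R : ℝ} (hR : 0 < R) (k : Fin n) (θ : ℝ) :
    ∫ v in ball (0 : Cm n) R, F (rotc k θ v) = ∫ v in ball (0 : Cm n) R, F v := by
  have hemb : MeasurableEmbedding (rotc (n := n) k θ) := (rotcHomeo k θ).measurableEmbedding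
  have h := (measurePreserving_rotc (n := n) k θ).setIntegral_preimage_emb hemb F
    (ball (0 : Cm n) R)
  have hpre : (rotc (n := n) k θ) ⁻¹' ball (0 : Cm n) R = ball (0 : Cm n) R := by
    ext v
    simp only [mem_preimage, mem_ball_zero_iff, pi_norm_lt_iff hR, norm_rotc]
  rw [hpre] at h
  exact h

/-- one coordinate more -/
lemma keep_step {f : Cm n → ℝ} {c : Cm n} {R A : ℝ} (hR : 0 < R) (hA : 0 ≤ A)
    (hf : ∀ z ∈ closedBall c R, ContDiffAt ℝ 2 f z)
    (hL : ∀ z ∈ closedBall c R, ∀ k, -A ≤ (cHess f z k k).re) (s : Finset (Fin n)) {k : Fin n}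
    (hk : k ∉ s) :
    ∫ v in ball (0 : Cm n) R, f (c + keep s v) ≤
      (∫ v in ball (0 : Cm n) R, f (c + keep (insert k s) v)) +
        volume.real (ball (0 : Cm n) R) * (A * R ^ 2) := by
  have hpi : (-π) ≤ π := by linarith [Real.pi_pos]
  have hfc : ContinuousOn f (closedBall c R) := fun z hz =>
    (hf z hz).continuousAt.continuousWithinAt
  set B0 := ball (0 : Cm n) R with hB0
  have hB0fin : volume B0 ≠ ⊤ := measure_ball_lt_top.ne
  set F : Cm n → ℝ → ℝ := fun v θ => f (c + keep (insert k s) (rotc k θ v)) with hF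
  have hmem : ∀ v ∈ closedBall (0 : Cm n) R, ∀ t : Finset (Fin n), c + keep t v ∈ closedBall c R := by
    intro v hv t
    rw [mem_closedBall_iff_norm, add_sub_cancel_left]
    exact (norm_keep_le t v).trans (by simpa using hv)
  have hrc : ∀ v ∈ closedBall (0 : Cm n) R, ∀ θ, rotc k θ v ∈ closedBall (0 : Cm n) R := by
    intro v hv θ
    rw [mem_closedBall_zero_iff, pi_norm_le_iff_of_nonneg hR.le]
    intro j
    rw [norm_rotc]
    exact (norm_le_pi_norm v j).trans (by simpa using hv)
  have hkc : ∀ t : Finset (Fin n), Continuous (keep (n := n) t) := by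
    intro t
    refine continuous_pi fun j => ?_
    unfold keep
    split_ifs <;> fun_prop
  have hrc2 : Continuous fun p : Cm n × ℝ => rotc k p.2 p.1 := by
    refine continuous_pi fun j => ?_
    unfold rotc
    split_ifs <;> fun_prop
  have hFc : ContinuousOn (Function.uncurry F) (closedBall (0 : Cm n) R ×ˢ Icc (-π) π) := by
    refine hfc.comp (f := fun p : Cm n × ℝ => c + keep (insert k s) (rotc k p.2 p.1))
      (continuous_const.add ((hkc _).comp hrc2)).continuousOn ?_
    intro p hp
    exact hmem _ (hrc p.1 hp.1 p.2) _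
  have hFi : Integrable (Function.uncurry F)
      ((volume.restrict B0).prod (volume.restrict (Ioc (-π) π))) := by
    rw [Measure.prod_restrict]
    have hK : IsCompact (closedBall (0 : Cm n) R ×ˢ Icc (-π) π) :=
      (isCompact_closedBall _ _).prod isCompact_Icc
    have := hFc.integrableOn_compact (μ := (volume : Measure (Cm n)).prod volume) hK
    exact this.mono_set (prod_mono ball_subset_closedBall Ioc_subset_Icc_self)
  have hgi : IntegrableOn (fun v => f (c + keep s v)) B0 := by
    have h1 : ContinuousOn (fun v => f (c + keep s v)) (closedBall (0 : Cm n) R) :=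
      hfc.comp (f := fun v => c + keep s v) (continuous_const.add (hkc s)).continuousOn
        (fun v hv => hmem v hv s)
    exact (h1.integrableOn_compact (isCompact_closedBall _ _)).mono_set ball_subset_closedBall
  -- pointwise inequality
  have hpt : ∀ v ∈ B0, 2 * π * f (c + keep s v) ≤
      (∫ θ in Ioc (-π) π, F v θ) + 2 * π * (A * R ^ 2) := by
    intro v hv
    have hv' : v ∈ closedBall (0 : Cm n) R := ball_subset_closedBall hv
    have hcomb : ∀ ζ : ℂ, ‖ζ‖ ≤ 1 →
        c + keep s v + ζ • (Pi.single k (v k) : Cm n) ∈ closedBall c R := by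
      intro ζ hζ
      have : c + keep s v + ζ • (Pi.single k (v k) : Cm n) - c =
          keep s v + ζ • (Pi.single k (v k) : Cm n) := by abel
      rw [mem_closedBall_iff_norm, this, pi_norm_le_iff_of_nonneg hR.le]
      intro j
      have hvj : ∀ j, ‖v j‖ ≤ R := fun j => (norm_le_pi_norm v j).trans (by simpa using hv')
      by_cases hj : j = k
      · subst hj
        simp only [Pi.add_apply, Pi.smul_apply, Pi.single_eq_same, keep, hk, if_false, zero_add,
          smul_eq_mul, norm_mul]
        calc ‖ζ‖ * ‖v j‖ ≤ 1 * R := by gcongr; exact hvj j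
          _ = R := one_mul R
      · simp only [Pi.add_apply, Pi.smul_apply, Pi.single_eq_of_ne hj, smul_zero, add_zero]
        exact ((norm_le_pi_norm (keep s v) j).trans (norm_keep_le s v)).trans (by simpa using hv')
    have h := circle_submean_dir (f := f) (p := c + keep s v) (w := Pi.single k (v k))
      (a := A * R ^ 2) (fun ζ hζ => hf _ (hcomb ζ (by simpa using hζ))) (fun ζ hζ => by
        have hz := hcomb ζ (by simpa using hζ)
        have hd : DifferentiableAt ℝ (fderiv ℝ f) (c + keep s v + ζ • Pi.single k (v k)) :=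
          ((hf _ hz).fderiv_right (m := 1) (by norm_num)).differentiableAt (by norm_num)
        have hsym : ∀ a b, fderiv ℝ (fderiv ℝ f) (c + keep s v + ζ • Pi.single k (v k)) a b =
            fderiv ℝ (fderiv ℝ f) (c + keep s v + ζ • Pi.single k (v k)) b a := fun a b =>
          (hf _ hz).isSymmSndFDerivAt (by simp) a b
        rw [second_dir hsym, ← N.cHess_eq_lev hd]
        have h1 := hL _ hz k
        have h2 : ‖v k‖ ≤ R := (norm_le_pi_norm v k).trans (by simpa using hv')
        have h3 : ‖v k‖ ^ 2 ≤ R ^ 2 := pow_le_pow_left₀ (norm_nonneg _) h2 2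
        have h4 : -(R ^ 2 * A) ≤ ‖v k‖ ^ 2 *
            (cHess f (c + keep s v + ζ • Pi.single k (v k)) k k).re := by
          calc -(R ^ 2 * A) ≤ -(‖v k‖ ^ 2 * A) := by
                have := mul_le_mul_of_nonneg_right h3 hA
                linarith
            _ = ‖v k‖ ^ 2 * (-A) := by ring
            _ ≤ _ := mul_le_mul_of_nonneg_left h1 (by positivity)
        linarith)
    rw [intervalIntegral.integral_of_le hpi] at h
    have e : ∀ θ : ℝ, c + keep s v + cexp (θ * I) • (Pi.single k (v k) : Cm n) =
        c + keep (insert k s) (rotc k θ v) := by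
      intro θ
      rw [add_assoc]
      congr 1
      funext j
      by_cases hj : j = k
      · subst hj
        simp [keep, rotc, hk]
      · simp only [Pi.add_apply, Pi.smul_apply, Pi.single_eq_of_ne hj, smul_zero, add_zero, keep,
          rotc, Finset.mem_insert, hj, false_or, if_false]
    simp only [e] at h
    exact h
  have hint : Integrable (fun v => ∫ θ in Ioc (-π) π, F v θ) (volume.restrict B0) :=
    hFi.integral_prod_left
  have h1 : ∫ v in B0, (2 * π * f (c + keep s v)) ≤
      ∫ v in B0, ((∫ θ in Ioc (-π) π, F v θ) + 2 * π * (A * R ^ 2)) := by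
    refine setIntegral_mono_on (hgi.const_mul _)
      (hint.add (integrableOn_const hB0fin)) measurableSet_ball hpt
  rw [integral_add hint (integrableOn_const hB0fin), MeasureTheory.integral_const_mul,
    setIntegral_const] at h1
  have h2 : ∫ v in B0, ∫ θ in Ioc (-π) π, F v θ =
      2 * π * ∫ v in B0, f (c + keep (insert k s) v) := by
    rw [integral_integral_swap hFi]
    have h3 : ∀ θ : ℝ, ∫ v in B0, F v θ = ∫ v in B0, f (c + keep (insert k s) v) := fun θ =>
      setIntegral_rotc (fun v => f (c + keep (insert k s) v)) hR k θ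
    simp only [h3, setIntegral_const, smul_eq_mul]
    congr 1
    rw [measureReal_def, Real.volume_Ioc, ENNReal.toReal_ofReal (by linarith [Real.pi_pos])]
    ring
  rw [h2, smul_eq_mul] at h1
  have hpos : 0 < 2 * π := by positivity
  have h4 : 2 * π * (∫ v in B0, f (c + keep s v)) ≤
      2 * π * ((∫ v in B0, f (c + keep (insert k s) v)) + volume.real B0 * (A * R ^ 2)) := by
    calc 2 * π * (∫ v in B0, f (c + keep s v)) ≤ _ := h1
      _ = _ := by ring
  exact le_of_mul_le_mul_left h4 hpos

/-- **HA1, diagonal form.** -/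
theorem polydisc_submean_diag {f : Cm n → ℝ} {c : Cm n} {R A : ℝ} (hR : 0 < R) (hA : 0 ≤ A)
    (hf : ∀ z ∈ closedBall c R, ContDiffAt ℝ 2 f z)
    (hL : ∀ z ∈ closedBall c R, ∀ k, -A ≤ (cHess f z k k).re) :
    f c ≤ (⨍ z in ball c R, f z) + A * n * R ^ 2 := by
  have hstep : ∀ s : Finset (Fin n), volume.real (ball (0 : Cm n) R) * f c ≤
      (∫ v in ball (0 : Cm n) R, f (c + keep s v)) +
        s.card * (volume.real (ball (0 : Cm n) R) * (A * R ^ 2)) := by
    intro s
    induction s using Finset.induction_on with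
    | empty =>
      have h0 : ∀ v : Cm n, keep (∅ : Finset (Fin n)) v = 0 := by
        intro v; funext j; simp [keep]
      simp [h0]
    | insert k s hk ih =>
      have h := keep_step hR hA hf hL s hk
      rw [Finset.card_insert_of_notMem hk]
      push_cast
      linarith
  have h := hstep Finset.univ
  have h0 : ∀ v : Cm n, keep (Finset.univ : Finset (Fin n)) v = v := by
    intro v; funext j; simp [keep]
  simp only [h0, Finset.card_univ, Fintype.card_fin] at h
  have hemb : MeasurableEmbedding (fun v : Cm n => c + v) :=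
    (Homeomorph.addLeft c).measurableEmbedding
  have htr := (measurePreserving_add_left (volume : Measure (Cm n)) c).setIntegral_preimage_emb
    hemb f (ball c R)
  have hpre : (fun v : Cm n => c + v) ⁻¹' ball c R = ball (0 : Cm n) R := by
    ext v; simp
  rw [hpre] at htr
  have hvol : volume.real (ball c R) = volume.real (ball (0 : Cm n) R) := by
    have h := (measurePreserving_add_left (volume : Measure (Cm n)) c).measure_preimage_emb
      hemb (ball c R)
    rw [hpre] at h
    rw [measureReal_def, measureReal_def, h]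
  rw [htr] at h
  have hv : 0 < volume.real (ball c R) := by
    rw [measureReal_def]
    exact ENNReal.toReal_pos (measure_ball_pos _ _ hR).ne' measure_ball_lt_top.ne
  rw [setAverage_eq, smul_eq_mul]
  rw [← hvol] at h
  have h2 : f c = (volume.real (ball c R))⁻¹ * (volume.real (ball c R) * f c) := by
    rw [← mul_assoc, inv_mul_cancel₀ hv.ne', one_mul]
  rw [h2]
  calc (volume.real (ball c R))⁻¹ * (volume.real (ball c R) * f c)
      ≤ (volume.real (ball c R))⁻¹ *
        ((∫ z in ball c R, f z) + n * (volume.real (ball c R) * (A * R ^ 2))) := by gcongr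
    _ = (volume.real (ball c R))⁻¹ * (∫ z in ball c R, f z) +
        ((volume.real (ball c R))⁻¹ * volume.real (ball c R)) * (A * n * R ^ 2) := by ring
    _ = _ := by rw [inv_mul_cancel₀ hv.ne', one_mul]

end Vale.Agent.P272.K.QN.H86
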